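import Vale.Agent.Lib.P331.Events

/-!
P331: the expectation lemma `exp_X_le` (one pair swap): the mean of the sum of the non-loop
values lying strictly above the largest non-loop sample is at most the mean of the largest
non-loop sample.
-/

namespace Vale.Agent.Lib.P331

open Finset

noncomputable section

open Classical

variable {E : Type} [Fintype E] [DecidableEq E]

/-! ### The largest non-loop sample -/

omit [DecidableEq E] in
theorem helper22_topS_eq (M : Matroid E) (S : E → ℝ) :
    topS M S = (((NL M).sup fun e => (S e).toNNReal : NNReal) : ℝ) := by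
  unfold topS NL
  congr 2

omit [DecidableEq E] in
theorem helper22_topS_nonneg (M : Matroid E) (S : E → ℝ) : 0 ≤ topS M S := by
  rw [helper22_topS_eq]
  exact NNReal.coe_nonneg _

omit [DecidableEq E] in
theorem helper22_le_topS (M : Matroid E) (S : E → ℝ) {e : E} (he : e ∈ NL M) :
    S e ≤ topS M S := by
  rw [helper22_topS_eq]
  have h1 : (S e).toNNReal ≤ (NL M).sup fun e => (S e).toNNReal :=
    Finset.le_sup (f := fun e => (S e).toNNReal) he
  calc S e ≤ ((S e).toNNReal : ℝ) := Real.le_coe_toNNReal _
    _ ≤ _ := by exact_mod_cast h1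

/-! ### Weights and the swap of one pair -/

omit [DecidableEq E] in
theorem helper22_wt_nonneg {Ω : Type} (p : E → Ω → ℝ) (hp : ∀ e ω, 0 ≤ p e ω) (s : E → Ω) :
    0 ≤ wt p s :=
  Finset.prod_nonneg fun e _ => hp e (s e)

/-- Swapping the atoms of one element between the sample vector and the value vector. -/
def helper22_swapAt {Ω : Type} (e : E) (x : (E → Ω) × (E → Ω)) : (E → Ω) × (E → Ω) :=
  (Function.update x.1 e (x.2 e), Function.update x.2 e (x.1 e))

omit [Fintype E] in
theorem helper22_swapAt_swapAt {Ω : Type} (e : E) (x : (E → Ω) × (E → Ω)) :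
    helper22_swapAt e (helper22_swapAt e x) = x := by
  obtain ⟨s, v⟩ := x
  simp only [helper22_swapAt]
  ext f
  · by_cases hf : f = e
    · subst hf; simp
    · simp [Function.update_of_ne hf]
  · by_cases hf : f = e
    · subst hf; simp
    · simp [Function.update_of_ne hf]

theorem helper22_wt_swapAt {Ω : Type} (p : E → Ω → ℝ) (e : E) (s v : E → Ω) :
    wt p (Function.update s e (v e)) * wt p (Function.update v e (s e)) = wt p s * wt p v := by
  unfold wt
  rw [← Finset.mul_prod_erase univ _ (Finset.mem_univ e),
    ← Finset.mul_prod_erase univ (fun f => p f (Function.update v e (s e) f)) (Finset.mem_univ e),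
    ← Finset.mul_prod_erase univ (fun f => p f (s f)) (Finset.mem_univ e),
    ← Finset.mul_prod_erase univ (fun f => p f (v f)) (Finset.mem_univ e)]
  have h1 : ∏ f ∈ univ.erase e, p f (Function.update s e (v e) f)
      = ∏ f ∈ univ.erase e, p f (s f) := by
    apply Finset.prod_congr rfl
    intro f hf
    rw [Function.update_of_ne (Finset.ne_of_mem_erase hf)]
  have h2 : ∏ f ∈ univ.erase e, p f (Function.update v e (s e) f)
      = ∏ f ∈ univ.erase e, p f (v f) := by
    apply Finset.prod_congr rfl
    intro f hf
    rw [Function.update_of_ne (Finset.ne_of_mem_erase hf)]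
  rw [h1, h2]
  simp only [Function.update_self]
  ring

theorem helper22_sum_swap {Ω : Type} [Fintype Ω] (p : E → Ω → ℝ)
    (g : (E → Ω) → (E → Ω) → ℝ) (e : E) :
    ∑ s : E → Ω, ∑ v : E → Ω, wt p s * wt p v * g s v
      = ∑ s : E → Ω, ∑ v : E → Ω,
          wt p s * wt p v * g (Function.update s e (v e)) (Function.update v e (s e)) := by
  rw [← Fintype.sum_prod_type', ← Fintype.sum_prod_type']
  let φ : (E → Ω) × (E → Ω) ≃ (E → Ω) × (E → Ω) :=
    ⟨helper22_swapAt e, helper22_swapAt e, helper22_swapAt_swapAt e, helper22_swapAt_swapAt e⟩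
  rw [← Equiv.sum_comp φ]
  apply Finset.sum_congr rfl
  intro x _
  obtain ⟨s, v⟩ := x
  show wt p (Function.update s e (v e)) * wt p (Function.update v e (s e)) *
      g (Function.update s e (v e)) (Function.update v e (s e)) = _
  rw [helper22_wt_swapAt]

/-! ### The bound after the swap -/

/-- The value of `e` under `s` when it is strictly above the values under `s` of all other
non-loop elements, and zero otherwise. -/
def helper22_U (M : Matroid E) {Ω : Type} (val : E → Ω → ℝ) (e : E) (s : E → Ω) : ℝ :=
  if ∀ f ∈ NL M, f ≠ e → val f (s f) < val e (s e) then val e (s e) else 0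

theorem helper22_sum_U_le (M : Matroid E) {Ω : Type} (val : E → Ω → ℝ) (s : E → Ω) :
    ∑ e ∈ NL M, helper22_U M val e s ≤ topS M (vals val s) := by
  by_cases h : ∃ e ∈ NL M, ∀ f ∈ NL M, f ≠ e → val f (s f) < val e (s e)
  · obtain ⟨e, he, hcond⟩ := h
    rw [Finset.sum_eq_single_of_mem e he]
    · unfold helper22_U
      rw [if_pos hcond]
      exact helper22_le_topS M (vals val s) he
    · intro b hb hbe
      unfold helper22_U
      rw [if_neg]
      intro hb'
      have h1 := hcond b hb hbe
      have h2 := hb' e he (Ne.symm hbe)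
      linarith
  · rw [Finset.sum_eq_zero]
    · exact helper22_topS_nonneg M _
    · intro e he
      unfold helper22_U
      rw [if_neg]
      intro hc
      exact h ⟨e, he, hc⟩

theorem helper22_sum_exchange (M : Matroid E) {Ω : Type} [Fintype Ω] (p : E → Ω → ℝ)
    (F : E → (E → Ω) → (E → Ω) → ℝ) :
    ∑ s : E → Ω, ∑ v : E → Ω, wt p s * wt p v * (∑ e ∈ NL M, F e s v)
      = ∑ e ∈ NL M, ∑ s : E → Ω, ∑ v : E → Ω, wt p s * wt p v * F e s v := by
  calc ∑ s : E → Ω, ∑ v : E → Ω, wt p s * wt p v * (∑ e ∈ NL M, F e s v)
      = ∑ s : E → Ω, ∑ e ∈ NL M, ∑ v : E → Ω, wt p s * wt p v * F e s v := by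
        apply Finset.sum_congr rfl
        intro s _
        rw [Finset.sum_comm]
        apply Finset.sum_congr rfl
        intro v _
        rw [Finset.mul_sum]
    _ = ∑ e ∈ NL M, ∑ s : E → Ω, ∑ v : E → Ω, wt p s * wt p v * F e s v := Finset.sum_comm

theorem helper22_swap_step (M : Matroid E) {Ω : Type} [Fintype Ω] (p val : E → Ω → ℝ)
    (hp : ∀ e ω, 0 ≤ p e ω) (hval : ∀ e ω, 0 ≤ val e ω) (e : E) :
    ∑ s : E → Ω, ∑ v : E → Ω, wt p s * wt p v *
        (if topS M (vals val s) < val e (v e) then val e (v e) else 0)
      ≤ ∑ s : E → Ω, ∑ v : E → Ω, wt p s * wt p v * helper22_U M val e s := by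
  rw [helper22_sum_swap p
    (fun s v => if topS M (vals val s) < val e (v e) then val e (v e) else 0) e]
  apply Finset.sum_le_sum
  intro s _
  apply Finset.sum_le_sum
  intro v _
  apply mul_le_mul_of_nonneg_left _
    (mul_nonneg (helper22_wt_nonneg p hp s) (helper22_wt_nonneg p hp v))
  show (if topS M (vals val (Function.update s e (v e))) < val e (Function.update v e (s e) e)
      then val e (Function.update v e (s e) e) else 0) ≤ helper22_U M val e s
  rw [Function.update_self]
  unfold helper22_U
  by_cases hc : topS M (vals val (Function.update s e (v e))) < val e (s e)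
  · rw [if_pos hc, if_pos]
    intro f hf hfe
    have h1 : vals val (Function.update s e (v e)) f
        ≤ topS M (vals val (Function.update s e (v e))) := helper22_le_topS M _ hf
    have h2 : vals val (Function.update s e (v e)) f = val f (s f) := by
      unfold vals
      rw [Function.update_of_ne hfe]
    linarith
  · rw [if_neg hc]
    split_ifs
    · exact hval e (s e)
    · exact le_refl 0

/-- The mean of the sum of the non-loop values that lie strictly above the largest non-loop
sample is at most the mean of the largest non-loop sample. -/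
theorem exp_X_le (M : Matroid E) {Ω : Type} [Fintype Ω] (p val : E → Ω → ℝ)
    (hp : ∀ e ω, 0 ≤ p e ω) (hval : ∀ e ω, 0 ≤ val e ω) :
    ∑ s : E → Ω, ∑ v : E → Ω, wt p s * wt p v *
        (∑ e ∈ NL M, if topS M (vals val s) < val e (v e) then val e (v e) else 0)
      ≤ ∑ s : E → Ω, ∑ v : E → Ω, wt p s * wt p v * topS M (vals val s) := by
  calc ∑ s : E → Ω, ∑ v : E → Ω, wt p s * wt p v *
        (∑ e ∈ NL M, if topS M (vals val s) < val e (v e) then val e (v e) else 0)
      = ∑ e ∈ NL M, ∑ s : E → Ω, ∑ v : E → Ω, wt p s * wt p v *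
        (if topS M (vals val s) < val e (v e) then val e (v e) else 0) :=
        helper22_sum_exchange M p
          (fun e s v => if topS M (vals val s) < val e (v e) then val e (v e) else 0)
    _ ≤ ∑ e ∈ NL M, ∑ s : E → Ω, ∑ v : E → Ω, wt p s * wt p v * helper22_U M val e s :=
        Finset.sum_le_sum fun e _ => helper22_swap_step M p val hp hval e
    _ = ∑ s : E → Ω, ∑ v : E → Ω, wt p s * wt p v * (∑ e ∈ NL M, helper22_U M val e s) :=
        (helper22_sum_exchange M p (fun e s _ => helper22_U M val e s)).symm
    _ ≤ ∑ s : E → Ω, ∑ v : E → Ω, wt p s * wt p v * topS M (vals val s) := by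
        apply Finset.sum_le_sum
        intro s _
        apply Finset.sum_le_sum
        intro v _
        exact mul_le_mul_of_nonneg_left (helper22_sum_U_le M val s)
          (mul_nonneg (helper22_wt_nonneg p hp s) (helper22_wt_nonneg p hp v))

end

end Vale.Agent.Lib.P331
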